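import Vale.Agent.P353S91.St
import Vale.Agent.P353B91.Ker

/-! # P353S91: transfer to an arbitrary model of the physical Hilbert space -/

open MeasureTheory Filter Topology

namespace Vale.Agent.P353S91

open Vale.Agent.P353 Vale.Agent.P353.BFSS Vale.Agent.P353.H121
open Vale.Agent.P353B91 (Phys GH G0 G1 L16)

variable {N d : ℕ} {F : Type*} [NormedAddCommGroup F] [InnerProductSpace ℂ F] (M : BFSS.Model N d F)
  {E : Type*} [NormedAddCommGroup E] [InnerProductSpace ℂ E] {ι : E → Conf d → F}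

theorem ex_space : IsPhysSpace M (fun Ψ : Phys M => (Ψ.1 : Conf d → F)) where
  memLp Ψ := Lp.memLp Ψ.1
  inv Ψ := Ψ.2
  onto f hf h := ⟨⟨hf.toLp f, fun U => by
    filter_upwards [hf.coeFn_toLp, (act_mp M U).quasiMeasurePreserving.ae hf.coeFn_toLp, h U]
      with x e1 e2 e3
    rw [e1, e2, e3]⟩, hf.coeFn_toLp⟩
  inner_eq Φ Ψ := L2.inner_def Φ.1 Ψ.1

theorem ex_equiv (h : IsPhysSpace M ι) : ∃ e : E ≃ₗ[ℂ] Phys M, Continuous e ∧
    (∀ Φ Ψ, inner ℂ (e Φ).1 (e Ψ).1 = inner ℂ Φ Ψ) ∧ ∀ Ψ, ∀ᵐ x ∂leb d, (e Ψ).1 x = ι Ψ x := by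
  let f : E → Phys M := fun Ψ => ⟨(h.memLp Ψ).toLp (ι Ψ), fun U => by
    filter_upwards [(h.memLp Ψ).coeFn_toLp,
      (act_mp M U).quasiMeasurePreserving.ae (h.memLp Ψ).coeFn_toLp, h.inv Ψ U] with x e1 e2 e3
    rw [e1, e2, e3]⟩
  have h1 : ∀ Φ Ψ, inner ℂ (f Φ).1 (f Ψ).1 = inner ℂ Φ Ψ := fun Φ Ψ =>
    (inner_toLp (h.memLp Φ) (h.memLp Ψ)).trans (h.inner_eq Φ Ψ).symm
  have h2 : Function.Surjective f := by
    intro y
    obtain ⟨Ψ, hΨ⟩ := h.onto y.1 (Lp.memLp y.1) y.2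
    refine ⟨Ψ, Subtype.ext (Lp.ext ?_)⟩
    filter_upwards [(h.memLp Ψ).coeFn_toLp, hΨ] with x e1 e2
    exact e1.trans e2
  have h3 : ∀ a b : Phys M, (∀ z, inner ℂ (f z).1 a.1 = inner ℂ (f z).1 b.1) → a = b := by
    intro a b hab
    obtain ⟨z, hz⟩ := h2 (a - b)
    have h4 : inner ℂ (a.1 - b.1) (a.1 - b.1) = 0 := by
      have h5 := hab z
      rw [hz] at h5
      rw [inner_sub_right]
      exact sub_eq_zero.2 h5
    exact Subtype.ext (sub_eq_zero.1 (inner_self_eq_zero.1 h4))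
  let g : E →ₗ[ℂ] Phys M :=
    { toFun := f
      map_add' := fun a b => h3 _ _ fun z => by
        rw [Submodule.coe_add, inner_add_right, h1, h1, h1, inner_add_right]
      map_smul' := fun c a => h3 _ _ fun z => by
        rw [RingHom.id_apply, Submodule.coe_smul, inner_smul_right, h1, h1, inner_smul_right] }
  let g' : E →ₗᵢ[ℂ] Phys M := g.isometryOfInner h1
  exact ⟨LinearEquiv.ofBijective g ⟨g'.injective, h2⟩, g'.continuous, h1,
    fun Ψ => (h.memLp Ψ).coeFn_toLp⟩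

section

variable (e : E ≃ₗ[ℂ] Phys M) (h1 : ∀ Φ Ψ, inner ℂ (e Φ).1 (e Ψ).1 = inner ℂ Φ Ψ)
  (h2 : ∀ Ψ, ∀ᵐ x ∂leb d, (e Ψ).1 x = ι Ψ x)

/-- the pull-back of the closed graph -/
noncomputable def G2 : Submodule ℂ (E × L16 d F) :=
  (G1 M).comap (e.toLinearMap.prodMap LinearMap.id)

theorem mem_G2 (p : E × L16 d F) : p ∈ G2 M e ↔ (e p.1, p.2) ∈ G1 M := Iff.rfl

include h1 in
theorem gh_iff (x y : E) : GH (G2 M e) x y ↔ GH (G1 M) (e x) (e y) := by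
  refine exists_congr fun w => and_congr Iff.rfl ⟨fun h p hp => ?_, fun h p hp => ?_⟩
  · obtain ⟨a, ha⟩ := e.surjective p.1
    have h3 : (a, p.2) ∈ G2 M e := by
      rw [mem_G2, ha]
      exact hp
    refine (h _ h3).trans ?_
    rw [← h1, ha]
    rfl
  · exact (h _ ((mem_G2 M e p).1 hp)).trans (h1 _ _)

include h1 in
theorem G2_dense (y : E) (h : ∀ p ∈ G2 M e, inner ℂ p.1 y = 0) : y = 0 := by
  refine e.map_eq_zero_iff.1 (P353B91.G1_dense M _ fun p hp => ?_)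
  obtain ⟨a, ha⟩ := e.surjective p.1
  have h3 : (a, p.2) ∈ G2 M e := by
    rw [mem_G2, ha]
    exact hp
  rw [← ha]
  exact (h1 _ _).trans (h _ h3)

include h2 in
theorem approx_iff (u : ℕ → Conf d → F) (Ψ : E) :
    Approx M ι u Ψ ↔ P353B91.Approx M u (e Ψ) := by
  have h3 : (fun n => ∫ x, ‖u n x - ι Ψ x‖ ^ 2 ∂leb d) =
      fun n => ∫ x, ‖u n x - (e Ψ).1 x‖ ^ 2 ∂leb d := by
    ext n
    refine integral_congr_ae ?_
    filter_upwards [h2 Ψ] with x hx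
    rw [hx]
  unfold Approx P353B91.Approx
  rw [h3]

include h1 h2 in
theorem ham_iff (H : E →ₗ.[ℂ] E) :
    IsHamiltonian M ι H ↔ ∀ x y, (x, y) ∈ H.graph ↔ GH (G2 M e) x y := by
  have key : ∀ D q, IsClosure M ι D q → ∀ x y,
      (x ∈ D ∧ ∀ Φ ∈ D, q Φ x = inner ℂ Φ y) ↔ GH (G2 M e) x y := by
    intro D q h x y
    have h3 : P353B91.IsClosure M (e.symm ⁻¹' D) fun Φ Ψ => q (e.symm Φ) (e.symm Ψ) := by
      refine ⟨fun Ψ => (h.dom _).trans (exists_congr fun u => ?_), fun u v Φ Ψ hu hv => ?_⟩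
      · rw [approx_iff M e h2, e.apply_symm_apply]
      · refine h.val u v _ _ ?_ ?_ <;> rwa [approx_iff M e h2, e.apply_symm_apply]
    rw [gh_iff M e h1, ← P353B91.assoc_iff M h3, e.surjective.forall]
    simp only [Set.mem_preimage, e.symm_apply_apply, h1]
  constructor
  · rintro ⟨D, q, h, h3⟩ x y
    exact (h3 x y).trans (key D q h x y)
  · intro h3
    obtain ⟨D, q, h⟩ := P353B91.ex_closure M
    have h4 : IsClosure M ι (e ⁻¹' D) fun Φ Ψ => q (e Φ) (e Ψ) :=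
      ⟨fun Ψ => (h.dom _).trans (exists_congr fun u => (approx_iff M e h2 u Ψ).symm),
        fun u v Φ Ψ hu hv => h.val u v _ _ ((approx_iff M e h2 _ _).1 hu)
          ((approx_iff M e h2 _ _).1 hv)⟩
    exact ⟨_, _, h4, fun x y => (h3 x y).trans (key _ _ h4 x y).symm⟩

end

theorem ex_ham (h : IsPhysSpace M ι) : ∃! H, IsHamiltonian M ι H := by
  obtain ⟨e, -, h1, h2⟩ := ex_equiv M h
  obtain ⟨H, hH⟩ := P353B91.ex_op (G2 M e) (G2_dense M e h1)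
  refine ⟨H, (ham_iff M e h1 h2 H).2 hH, fun H' h' =>
    LinearPMap.eq_of_eq_graph (Submodule.ext fun p => ?_)⟩
  exact ((ham_iff M e h1 h2 H').1 h' p.1 p.2).trans (hH p.1 p.2).symm

theorem ham_sa [CompleteSpace E] (h : IsPhysSpace M ι) {H : E →ₗ.[ℂ] E}
    (hH : IsHamiltonian M ι H) : IsSelfAdjoint H ∧ IsNonneg H := by
  obtain ⟨e, h0, h1, h2⟩ := ex_equiv M h
  have hF := fdim M
  have hFc : CompleteSpace F := FiniteDimensional.complete ℂ F
  exact P353B91.sa_of (G2 M e)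
    ((G0 M).isClosed_topologicalClosure.preimage (h0.prodMap continuous_id))
    (G2_dense M e h1) H ((ham_iff M e h1 h2 H).1 hH)

theorem ham_ker (hN : 2 ≤ N) (h : IsPhysSpace M ι) {H : E →ₗ.[ℂ] E}
    (hH : IsHamiltonian M ι H) : kerDim H = 1 := by
  obtain ⟨e, -, h1, h2⟩ := ex_equiv M h
  have hk : ∀ x, (x, 0) ∈ H.graph ↔ M.IsZeroEnergyState (e x).1 := fun x => by
    rw [(ham_iff M e h1 h2 H).1 hH, gh_iff M e h1, map_zero, P353B91.ker_iff]
  obtain ⟨Φ, k1, k2, k3⟩ := (Z.AFinal.oneX hN).2 d F M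
  obtain ⟨Ψ, hΨ⟩ := h.onto Φ k1.1 (invariant_of_zes M k1)
  have hc : ∀ᵐ x ∂leb d, (e Ψ).1 x = Φ x := by
    filter_upwards [h2 Ψ, hΨ] with x a1 a2
    exact a1.trans a2
  obtain ⟨x, e1, e2⟩ := (H.mem_graph_iff).1 ((hk Ψ).2 (zes_congr M k1 hc))
  have h6 : x.1 = Ψ := e1
  refine P353B91.ker_one H x e2 (fun h0 => k2 ?_) fun y h4 => ?_
  · have h5 : (e Ψ).1 = 0 := by rw [← h6, h0, map_zero, Submodule.coe_zero]
    filter_upwards [hc, Lp.coeFn_zero F 2 (leb d)] with z a1 a2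
    rw [← a1, h5, a2, Pi.zero_apply]
  · have h5 := H.mem_graph y
    rw [h4] at h5
    obtain ⟨c, hc'⟩ := k3 _ ((hk _).1 h5)
    refine ⟨c, e.injective (Subtype.ext (Lp.ext ?_))⟩
    rw [map_smul, h6, Submodule.coe_smul]
    filter_upwards [hc, hc', Lp.coeFn_smul c (e Ψ).1] with z a1 a2 a3
    rw [a3, a2, Pi.smul_apply, a1]

end Vale.Agent.P353S91
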