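import Vale.Agent.P353.BFSS

/-! # P353S91: the physical Hilbert space, the closure of the form, the Hamiltonian -/

open MeasureTheory Filter Topology

namespace Vale.Agent.P353S91

open Vale.Agent.P353.BFSS

variable {N d : ℕ} {F : Type*} [NormedAddCommGroup F] [InnerProductSpace ℂ F] (M : Model N d F)
  {E : Type*} [NormedAddCommGroup E] [InnerProductSpace ℂ E] (ι : E → Conf d → F)

/-- `ι` identifies `E` with the physical Hilbert space, the space of the `SU(N)`-invariant vectors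
of `L²(ℝ^{9d}; F)`: its values are invariant `L²` functions, every invariant `L²` function is
almost everywhere equal to a value, and `ι` preserves the inner product. -/
structure IsPhysSpace : Prop where
  memLp : ∀ Ψ, MemLp (ι Ψ) 2 (leb d)
  inv : ∀ Ψ U, ∀ᵐ x ∂leb d, ι Ψ (M.act U x) = M.S U (ι Ψ x)
  onto : ∀ f, MemLp f 2 (leb d) → (∀ U, ∀ᵐ x ∂leb d, f (M.act U x) = M.S U (f x)) →
    ∃ Ψ, ∀ᵐ x ∂leb d, ι Ψ x = f x
  inner_eq : ∀ Φ Ψ, inner ℂ Φ Ψ = ∫ x, inner ℂ (ι Φ x) (ι Ψ x) ∂leb d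

/-- The core functions `u n` converge to `Ψ` in `L²` and form a Cauchy sequence for `q_N`. -/
def Approx (u : ℕ → Conf d → F) (Ψ : E) : Prop :=
  (∀ n, M.IsCore (u n)) ∧ Tendsto (fun n => ∫ x, ‖u n x - ι Ψ x‖ ^ 2 ∂leb d) atTop (𝓝 0) ∧
    Tendsto (fun p : ℕ × ℕ => M.form (u p.1 - u p.2) (u p.1 - u p.2)) atTop (𝓝 0)

/-- The form `q` with domain `D` is the closure of the form `q_N`. -/
structure IsClosure (D : Set E) (q : E → E → ℂ) : Prop where
  dom : ∀ Ψ, Ψ ∈ D ↔ ∃ u, Approx M ι u Ψ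
  val : ∀ u v Φ Ψ, Approx M ι u Φ → Approx M ι v Ψ →
    Tendsto (fun n => M.form (u n) (v n)) atTop (𝓝 (q Φ Ψ))

/-- `H` is the operator associated with the closure of the form `q_N`: `H Ψ = η` if and only if
`Ψ` is in the domain of the closed form `q` and `q(Φ, Ψ) = ⟨Φ, η⟩` for all `Φ` in this domain. -/
def IsHamiltonian (H : E →ₗ.[ℂ] E) : Prop := ∃ D q, IsClosure M ι D q ∧
  ∀ Ψ η, (Ψ, η) ∈ H.graph ↔ Ψ ∈ D ∧ ∀ Φ ∈ D, q Φ Ψ = inner ℂ Φ η

/-- The operator `H` is nonnegative. -/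
def IsNonneg (H : E →ₗ.[ℂ] E) : Prop := ∀ Ψ : H.domain, 0 ≤ (inner ℂ Ψ.1 (H Ψ)).re

/-- The dimension of the kernel of the operator `H`. -/
noncomputable def kerDim (H : E →ₗ.[ℂ] E) : ℕ := Module.finrank ℂ (LinearMap.ker H.toFun)

end Vale.Agent.P353S91
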